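import Vale.Agent.P335.Mixing

/-! The switch chain mixes rapidly for every degree vector. -/

namespace Vale.Agent.Results.P335.SwitchRapidMixing

open Vale.Agent.P335

/-- There are constants `C` and `k` such that, for every `n ≥ 4`, every degree vector `d` and
every starting realisation, after `C * n ^ k` or more steps the switch chain is within total
variation distance `1/4` of the uniform law. -/
theorem result : ∃ C k : ℕ, ∀ n : ℕ, 4 ≤ n → ∀ d : Fin n → ℕ, ∀ G : Realization d,
    ∀ t : ℕ, C * n ^ k ≤ t → tvDistance d t G ≤ 1 / 4 :=
  rapid_mixing

end Vale.Agent.Results.P335.SwitchRapidMixing
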